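import Vale.Agent.P221X.TC.Defs
import Vale.Agent.P221X.VT.Flat
import Vale.Agent.P221X.GD.Keat
import Vale.Agent.P221X.Meas.Inj

/-!
# P221X, block EV: the evaluation map and the socle of its source
-/

set_option linter.unusedSectionVars false

noncomputable section

namespace Vale.Agent.P221X.EV

open Vale.Agent.P251.F Qt TC VT PowerSeries TensorProduct ProG

theorem c_mul_congr {B : Type*} [CommRing B] (f : InvSeries B) {g g' : InvSeries B} {n : ℕ}
    (h : ∀ k ≤ n, g'.c k = g.c k) : ∀ k ≤ n, (f * g').c k = (f * g).c k := fun k hk =>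
  coeff_subst_agr (m := n + 2) g.cc g'.cc (fun _ _ => rfl) (fun i hi => by
    rcases i with _ | i
    · rw [coeff_zero_eq_constantCoeff_apply, coeff_zero_eq_constantCoeff_apply, g.cc, g'.cc]
    · exact h i (by omega)) (k + 1) (by omega)

theorem oinv_top {E : Type} [CommRing E] (S : Subring (OInv E)) (h1 : ∀ e, OInv.inc E e ∈ S)
    (h2 : ∀ n, OInv.cc E n ∈ S) (h3 : (((OInv.f E).lead⁻¹ : (OInv E)ˣ) : OInv E) ∈ S)
    (t : OInv E) : t ∈ S := by
  have hu : IsUnit (⟨OInv.cc E 0, h2 0⟩ : S) := IsUnit.of_mul_eq_one ⟨_, h3⟩ (Subtype.ext (by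
    change OInv.cc E 0 * _ = 1
    rw [← OInv.c_f, ← InvSeries.lead_val, Units.mul_inv]))
  have h : S.subtype.comp (OInv.lift ((OInv.inc E).codRestrict S h1)
      (InvSeries.ofCoeff (fun n => ⟨_, h2 n⟩) hu)) = RingHom.id _ := by
    refine OInv.hom_ext ?_ (InvSeries.ext_c fun n => ?_)
    · rw [RingHom.comp_assoc, OInv.lift_comp_inc]; rfl
    · rw [InvSeries.c_map, InvSeries.c_map, OInv.c_f, RingHom.comp_apply, OInv.lift_cc,
        InvSeries.c_ofCoeff]
      rfl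
  rw [← RingHom.id_apply t, ← h]
  exact Subtype.prop _

variable {p : ℕ} [hp : Fact p.Prime] {F : Type} [Field F]

theorem smul_soc {M : Type*} [AddCommGroup M] [Module F⟦X⟧ M] {y : M} (hy : (X : F⟦X⟧) • y = 0)
    (f : F⟦X⟧) : f • y = (C (constantCoeff f) : F⟦X⟧) • y := by
  obtain ⟨g, hg⟩ := X_dvd_iff.2 (show constantCoeff (f - C (constantCoeff f)) = 0 by simp)
  rw [← sub_eq_zero, ← sub_smul, hg, mul_comm, mul_smul, hy, smul_zero]

theorem hom_soc {P : Type*} [CommRing P] (φ : F⟦X⟧ →+* P) (h : φ X = 0) (f : F⟦X⟧) :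
    φ f = φ (C (constantCoeff f)) := by
  obtain ⟨g, hg⟩ := X_dvd_iff.2 (show constantCoeff (f - C (constantCoeff f)) = 0 by simp)
  rw [← sub_eq_zero, ← map_sub, hg, map_mul, h, zero_mul]

variable [CharP F p] {G G' : Type} [Group G] [ProG G] [MulSemiringAction G F⟦X⟧]
  [MulSemiringAction G (KK F)] [Group G'] [ProG G'] [MulSemiringAction G' (KK F)]
  (B : BG p F G G')

theorem pt_inc (g : G) (f : F⟦X⟧) : B.pt g (OInv.inc _ f) = (B.emb g).φ f := OInv.lift_inc _ _ f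

theorem pt_cc (g : G) (n : ℕ) : B.pt g (OInv.cc _ n) = (B.emb g).γ.c n := OInv.lift_cc _ _ n

theorem pt_cont (k : ℕ) (t : OInv F⟦X⟧) :
    ∃ i, ∀ g, ∀ n ∈ N (G := G) i, (X : F⟦X⟧) ^ k ∣ B.pt (g * n) t - B.pt g t := by
  let q := Ideal.Quotient.mk (Ideal.span {(X : F⟦X⟧) ^ k})
  have hq : ∀ {a b : F⟦X⟧}, q a = q b ↔ (X : F⟦X⟧) ^ k ∣ a - b :=
    Ideal.Quotient.eq.trans Ideal.mem_span_singleton
  have hφ : ∀ (g : G) {a b : F⟦X⟧}, (X : F⟦X⟧) ^ k ∣ a - b →
      q ((B.emb g).φ a) = q ((B.emb g).φ b) := fun g a b h => hq.2 (by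
    rw [← map_sub]
    refine (pow_dvd_pow_of_dvd (X_dvd_iff.2 (cc_aut (B.emb g).φ constantCoeff_X)) k).trans ?_
    rw [← map_pow]
    exact map_dvd _ h)
  let S : Subring (OInv F⟦X⟧) :=
    { carrier := {t | ∃ i, ∀ g, ∀ n ∈ N (G := G) i, q (B.pt (g * n) t) = q (B.pt g t)}
      mul_mem' := fun ⟨i, hi⟩ ⟨j, hj⟩ => ⟨max i j, fun g n hn => by
        simp only [map_mul, hi g n (anti (le_max_left i j) hn), hj g n (anti (le_max_right i j) hn)]⟩
      add_mem' := fun ⟨i, hi⟩ ⟨j, hj⟩ => ⟨max i j, fun g n hn => by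
        simp only [map_add, hi g n (anti (le_max_left i j) hn), hj g n (anti (le_max_right i j) hn)]⟩
      one_mem' := ⟨0, fun _ _ _ => by simp only [map_one]⟩
      zero_mem' := ⟨0, fun _ _ _ => by simp only [map_zero]⟩
      neg_mem' := fun ⟨i, hi⟩ => ⟨i, fun g n hn => by simp only [map_neg, hi g n hn]⟩ }
  have h2 : ∀ j, OInv.cc F⟦X⟧ j ∈ S := fun j => by
    obtain ⟨i, hi⟩ := B.cof1 (k + j)
    refine ⟨i, fun g n hn => ?_⟩
    rw [pt_cc, pt_cc, map_mul, LPair.mul_γ, ← InvSeries.c_map, ← InvSeries.c_map, map_mul]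
    refine (c_mul_congr _ (g := 1) (fun l hl => ?_) j le_rfl).trans (by rw [mul_one])
    rw [InvSeries.c_map, InvSeries.c_map, ← map_one (InvSeries.map q), InvSeries.c_map,
      ← map_one (InvSeries.map ((B.emb g).φ : F⟦X⟧ →+* F⟦X⟧)), InvSeries.c_map]
    exact hφ g ((pow_dvd_pow _ (by omega)).trans ((hi n hn).2 l (by omega)))
  refine (oinv_top S (fun e => ?_) h2 ?_ t).imp fun i hi g n hn => hq.1 (hi g n hn)
  · obtain ⟨i, hi⟩ := B.cof1 k
    refine ⟨i, fun g n hn => ?_⟩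
    rw [pt_inc, pt_inc, map_mul]
    exact hφ g ((hi n hn).1 e)
  · obtain ⟨i, hi⟩ := h2 0
    refine ⟨i, fun g n hn => ?_⟩
    have e : ∀ g, q (B.pt g (OInv.cc _ 0)) * q (B.pt g ((OInv.f F⟦X⟧).lead⁻¹ : (OInv F⟦X⟧)ˣ)) = 1 :=
      fun g => by
        rw [← map_mul, ← map_mul, ← OInv.c_f, ← InvSeries.lead_val, Units.mul_inv, map_one, map_one]
    exact left_inv_eq_right_inv ((mul_comm _ _).trans (e _)) (hi g n hn ▸ e g)

variable {A : Type} [CommRing A] {χ : A →+* F⟦X⟧} (χT : A →+* OInv F⟦X⟧)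

theorem TK_ind {motive : TK χT → Prop} (m : TK χT) (zero : motive 0)
    (tm : ∀ t y, motive (TK.tm χT t y)) (add : ∀ x y, motive x → motive y → motive (x + y)) :
    motive m := TensorProduct.induction_on (motive := motive) m zero tm add

theorem smul_tm (s t : OInv F⟦X⟧) (y : KO F) : s • TK.tm χT t y = TK.tm χT (s * t) y :=
  TensorProduct.smul_tmul' s t y

theorem tm_smul (f : F⟦X⟧) (t : OInv F⟦X⟧) (y : KO F) :
    TK.tm χT t (f • y) = OInv.inc _ f • TK.tm χT t y :=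
  (TensorProduct.tmul_smul f t y).trans (algebraMap_smul (OInv F⟦X⟧) f _).symm

theorem tm_zero (t : OInv F⟦X⟧) : TK.tm χT t 0 = 0 := TensorProduct.tmul_zero _ t

variable [ActK G F]

/-- the value at `g` -/
def evg (g : G) : TK χT →+ KO F :=
  TensorProduct.liftAddHom (R := F⟦X⟧) (M := OInv F⟦X⟧) (N := KO F)
    (AddMonoidHom.mk' (fun t => (DistribSMul.toAddMonoidHom _ (B.pt g t)).comp
      (DistribSMul.toAddMonoidHom _ g)) fun s t => AddMonoidHom.ext fun y => by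
        change B.pt g (s + t) • g • y = B.pt g s • g • y + B.pt g t • g • y
        rw [map_add, add_smul])
    fun f t y => by
      change B.pt g (f • t) • g • y = B.pt g t • g • f • y
      rw [Algebra.smul_def, map_mul, smul_distrib_smul g f y, B.emb_O, ← pt_inc, mul_comm, mul_smul]
      rfl

theorem evg_tm (g : G) (t : OInv F⟦X⟧) (y : KO F) :
    evg B χT g (TK.tm χT t y) = B.pt g t • g • y := rfl

theorem evg_smul (g : G) (s : OInv F⟦X⟧) (m : TK χT) :
    evg B χT g (s • m) = B.pt g s • evg B χT g m := by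
  induction m using TK_ind with
  | zero => rw [smul_zero, map_zero, smul_zero]
  | tm t y => rw [smul_tm, evg_tm, evg_tm, map_mul, mul_smul]
  | add x y hx hy => rw [smul_add, map_add, map_add, hx, hy, smul_add]

theorem evg_cont (m : TK χT) :
    ∃ i, ∀ g, ∀ n ∈ N (G := G) i, evg B χT (g * n) m = evg B χT g m := by
  induction m using TK_ind with
  | zero => exact ⟨0, fun _ _ _ => by rw [map_zero, map_zero]⟩
  | tm t y =>
    obtain ⟨k, hk⟩ := KO.exists_tors y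
    obtain ⟨i, hi⟩ := pt_cont B k t
    obtain ⟨j, hj⟩ := Disc.disc (G := G) y
    refine ⟨max i j, fun g n hn => ?_⟩
    obtain ⟨c, hc⟩ := hi g n (anti (le_max_left i j) hn)
    rw [evg_tm, evg_tm, mul_smul, hj n (anti (le_max_right i j) hn), ← sub_eq_zero, ← sub_smul, hc,
      mul_comm, mul_smul, KO.tors_gsmul g hk, smul_zero]
  | add x y hx hy =>
    obtain ⟨i, hi⟩ := hx
    obtain ⟨j, hj⟩ := hy
    exact ⟨max i j, fun g n hn => by rw [map_add, map_add, hi g n (anti (le_max_left i j) hn),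
      hj g n (anti (le_max_right i j) hn)]⟩

variable {χT}

/-- the evaluation map -/
def Ev (h : ∀ g, (B.pt g).comp χT = χ) : BC χ (TK χT) →ₗ[F⟦X⟧] LC G (KO F) :=
  BC.lift (RingHom.id _) (AddMonoidHom.mk' (fun m => LC.mk (fun g => evg B χT g m)
    (evg_cont B χT m)) fun x y => LC.ext fun g => map_add (evg B χT g) x y) fun a m =>
      LC.ext fun g => (evg_smul B χT g (χT a) m).trans
        (congrArg (· • evg B χT g m) (RingHom.congr_fun (h g) a))

theorem Ev_mk (h : ∀ g, (B.pt g).comp χT = χ) (m : TK χT) (g : G) :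
    Ev B h (BC.mk χ m) g = evg B χT g m := DFunLike.congr_fun (BC.lift_mk _ _ _ m) g

/-! ### The socle -/

variable (χT) in
/-- `OInv O ⊗_O V` as a module over `A` -/
def TV (V : Type) [AddCommGroup V] [Module F⟦X⟧ V] : Type :=
  let _ := χT
  OInv F⟦X⟧ ⊗[F⟦X⟧] V

section TV

variable {V V' : Type} [AddCommGroup V] [Module F⟦X⟧ V] [AddCommGroup V'] [Module F⟦X⟧ V']

instance : AddCommGroup (TV χT V) := inferInstanceAs (AddCommGroup (OInv F⟦X⟧ ⊗[F⟦X⟧] V))

instance : Module (OInv F⟦X⟧) (TV χT V) :=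
  inferInstanceAs (Module (OInv F⟦X⟧) (OInv F⟦X⟧ ⊗[F⟦X⟧] V))

instance : Module A (TV χT V) := Module.compHom (TV χT V) χT

/-- linear maps -/
def lin {M M' : Type} [AddCommGroup M] [Module (OInv F⟦X⟧) M] [Module A M] [AddCommGroup M']
    [Module (OInv F⟦X⟧) M'] [Module A M'] (h : ∀ (a : A) (m : M), a • m = χT a • m)
    (h' : ∀ (a : A) (m : M'), a • m = χT a • m) (f : M →ₗ[OInv F⟦X⟧] M') : M →ₗ[A] M' where
  toFun := f
  map_add' := f.map_add
  map_smul' a m := by rw [h, h', map_smul]; rfl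

end TV

omit [ActK G F] in
theorem exists_eps {L : Laz →+* A} (h1 : χ.comp L = Laz.lift (FO p F))
    (h2 : χT.comp L = Laz.lift (genLaw (FO p F))) :
    ∃ (a : A) (ε : (OInv F⟦X⟧)ˣ), χ a = X ∧ (ε : OInv F⟦X⟧) * χT a = OInv.inc _ X := by
  have h := (vv_smul_of_zero p 1 ((FO p F).map (OInv.inc _)) (OInv.f F⟦X⟧) fun i hi => by
    obtain rfl : i = 0 := by omega
    rw [vv_map, vv_zero, ← map_natCast (C (R := F)), CharP.cast_eq_zero, map_zero, map_zero]).2
  refine ⟨L (vv p 1 Laz.univ), (OInv.f F⟦X⟧).lead⁻¹ * (OInv.f F⟦X⟧).lead ^ p ^ 1, ?_, ?_⟩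
  · rw [← RingHom.comp_apply, h1, ← vv_map, Laz.univ_map_lift, Kt.vv_FO]
  · rw [← RingHom.comp_apply, h2, ← vv_map, Laz.univ_map_lift, Units.val_mul, mul_assoc,
      Units.inv_mul_eq_iff_eq_mul, Units.val_pow_eq_pow_val, InvSeries.lead_val, mul_comm, genLaw,
      h, vv_map, Kt.vv_FO]

section soc

variable {a : A} {ε : (OInv F⟦X⟧)ˣ} (h1 : χ a = X)
  (h2 : (ε : OInv F⟦X⟧) * χT a = OInv.inc _ X)

include h1 h2

theorem X_smul_mk (t : OInv F⟦X⟧) (y : KO F) :
    (X : F⟦X⟧) • BC.mk χ (TK.tm χT (ε * t) y) = BC.mk χ (TK.tm χT t ((X : F⟦X⟧) • y)) := by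
  rw [← h1, ← BC.mk_smul, h1, tm_smul, ← h2, ← smul_tm, mul_comm, mul_smul]
  rfl

theorem divis (z : BC χ (TK χT)) : ∃ y, (X : F⟦X⟧) • y = z := by
  induction z using BC.ind with
  | zero => exact ⟨0, smul_zero _⟩
  | add x y hx hy =>
    obtain ⟨x', rfl⟩ := hx
    obtain ⟨y', rfl⟩ := hy
    exact ⟨x' + y', smul_add _ _ _⟩
  | smul b m =>
    induction m using TK_ind with
    | zero => exact ⟨0, by rw [smul_zero, map_zero, smul_zero]⟩
    | tm t y =>
      obtain ⟨y, rfl⟩ := KO.divisible (X_ne_zero (R := F)) y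
      exact ⟨b • BC.mk χ (TK.tm χT (ε * t) y), by rw [smul_comm, X_smul_mk h1 h2]⟩
    | add x y hx hy =>
      obtain ⟨x', hx⟩ := hx
      obtain ⟨y', hy⟩ := hy
      exact ⟨x' + y', by rw [smul_add, hx, hy, map_add, smul_add]⟩

theorem tors (z : BC χ (TK χT)) : ∃ n : ℕ, (X : F⟦X⟧) ^ n • z = 0 := by
  have ad : ∀ x y : BC χ (TK χT), (∃ n : ℕ, (X : F⟦X⟧) ^ n • x = 0) →
      (∃ n : ℕ, (X : F⟦X⟧) ^ n • y = 0) → ∃ n : ℕ, (X : F⟦X⟧) ^ n • (x + y) = 0 :=
    fun x y ⟨m, hm⟩ ⟨n, hn⟩ => ⟨max m n, by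
      rw [smul_add, KO.tors_mono (le_max_left m n) hm, KO.tors_mono (le_max_right m n) hn, add_zero]⟩
  have key : ∀ (n : ℕ) (y : KO F), (X : F⟦X⟧) ^ n • y = 0 → ∀ t,
      (X : F⟦X⟧) ^ n • BC.mk χ (TK.tm χT t y) = 0 := by
    intro n
    induction n with
    | zero => intro y hy t; rw [pow_zero, one_smul] at hy; rw [hy, tm_zero, map_zero, smul_zero]
    | succ n ih =>
      intro y hy t
      rw [pow_succ, mul_smul] at hy ⊢
      rw [← Units.mul_inv_cancel_left ε t, X_smul_mk h1 h2, ih _ hy]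
  induction z using BC.ind with
  | zero => exact ⟨0, smul_zero _⟩
  | add x y hx hy => exact ad x y hx hy
  | smul b m =>
    induction m using TK_ind with
    | zero => exact ⟨0, by rw [map_zero, smul_zero, smul_zero]⟩
    | tm t y => exact (KO.exists_tors y).imp fun n hn => by rw [smul_comm, key n y hn, smul_zero]
    | add x y hx hy => rw [map_add, smul_add]; exact ad _ _ hx hy

theorem soc (S : Submodule F⟦X⟧ (BC χ (TK χT)))
    (hS : ∀ t, BC.mk χ (TK.tm χT t (KO.mk (KK.uz (-1)))) ∈ S) {z : BC χ (TK χT)}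
    (hz : (X : F⟦X⟧) • z = 0) : z ∈ S := by
  let i : TV χT F⟦X⟧ →ₗ[A] TV χT (KK F) := lin (fun _ _ => rfl) (fun _ _ => rfl)
    ((Algebra.linearMap F⟦X⟧ (KK F)).baseChange (OInv F⟦X⟧))
  let π : TV χT (KK F) →ₗ[A] TK χT := lin (fun _ _ => rfl) (fun _ _ => rfl)
    ((KO.mk (F := F)).baseChange (OInv F⟦X⟧))
  let Y : TV χT (KK F) →ₗ[A] TV χT (KK F) := lin (fun _ _ => rfl) (fun _ _ => rfl)
    ((ε : OInv F⟦X⟧) • (LinearMap.mulLeft F⟦X⟧ (KK.uz (-1) : KK F)).baseChange (OInv F⟦X⟧))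
  have ex : Function.Exact (Algebra.linearMap F⟦X⟧ (KK F)) (KO.mk (F := F)) := fun y =>
    KO.mk_eq_zero.trans ⟨fun h => (exists_alg_of_ge h).imp fun _ => Eq.symm,
      fun ⟨f, h⟩ => h ▸ KK.algebraMap_mem_ge f⟩
  have ex' : Function.Exact i π := lTensor_exact (OInv F⟦X⟧) ex KO.mk_surj
  have su : Function.Surjective π := LinearMap.lTensor_surjective (OInv F⟦X⟧) KO.mk_surj
  obtain ⟨x, rfl⟩ := BC.map_surjective (lam := χ) π su z
  obtain ⟨m, hm⟩ := BC.exact_of_surj (lam := χ) i π (fun y => (ex' y).1)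
    (fun x => (ex' _).2 ⟨x, rfl⟩) su ((X : F⟦X⟧) • x) (by rw [map_smul, hz])
  have hY : ∀ x : BC χ (TV χT (KK F)), BC.map χ Y ((X : F⟦X⟧) • x) = x := fun x => by
    induction x using BC.ind with
    | zero => rw [smul_zero, map_zero]
    | add x y hx hy => rw [smul_add, map_add, hx, hy]
    | smul b m =>
      rw [smul_comm, map_smul, ← h1, ← BC.mk_smul, BC.map_mk]
      congr 2
      induction m using TensorProduct.induction_on with
      | zero => exact (congrArg Y (smul_zero a)).trans (map_zero Y)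
      | add x y hx hy =>
        exact (congrArg Y (smul_add a (show TV χT (KK F) from x) y)).trans
          ((map_add Y _ _).trans (congrArg₂ _ hx hy))
      | tmul t y =>
        change ((ε : OInv F⟦X⟧) * (χT a * t)) ⊗ₜ[F⟦X⟧] (KK.uz (-1) * y) = t ⊗ₜ[F⟦X⟧] y
        rw [← mul_assoc, h2, OInv.inc, ← Algebra.smul_def, smul_tmul, Algebra.smul_def,
          KK.algebraMap_X, ← mul_assoc, DEP.uz_neg, one_mul]
  rw [← hY x, ← hm]
  clear hm
  induction m using BC.ind with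
  | zero => simp only [map_zero, zero_mem]
  | add x y hx hy => simp only [map_add, add_mem hx hy]
  | smul b m =>
    simp only [map_smul, BC.map_mk]
    refine S.smul_mem b ?_
    induction m using TensorProduct.induction_on with
    | zero => exact (map_zero (((BC.mk χ).comp π.toAddMonoidHom).comp
        (Y.comp i).toAddMonoidHom)).symm ▸ S.zero_mem
    | add x y hx hy => exact (map_add (((BC.mk χ).comp π.toAddMonoidHom).comp
        (Y.comp i).toAddMonoidHom) x y).symm ▸ S.add_mem hx hy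
    | tmul t f =>
      have e1 : i (t ⊗ₜ[F⟦X⟧] f) = t ⊗ₜ[F⟦X⟧] algebraMap F⟦X⟧ (KK F) f := rfl
      have e2 : ∀ y : KK F, Y (t ⊗ₜ[F⟦X⟧] y) = ((ε : OInv F⟦X⟧) * t) ⊗ₜ[F⟦X⟧] (KK.uz (-1) * y) :=
        fun _ => rfl
      have e3 : ∀ (t : OInv F⟦X⟧) (y : KK F), π (t ⊗ₜ[F⟦X⟧] y) = TK.tm χT t (KO.mk y) :=
        fun _ _ => rfl
      rw [e1, e2, e3, mul_comm (KK.uz (-1)), ← KO.smul_mk, tm_smul, smul_tm]
      exact hS _

end soc

end Vale.Agent.P221X.EV
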