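import Vale.Agent.P221X.GD.LP
import Vale.Agent.P221X.VT.Act
import Vale.Agent.P251.F.AutRep

/-!
# P221X, block EV: the points of the ring of functions on the big group
-/

open CategoryTheory MonoidalCategory Limits Pretriangulated MonObj

set_option linter.unusedSectionVars false

universe v u

noncomputable section

namespace Vale.Agent.P221X.EV

open Vale.Agent.P251 Vale.Agent.P251.T Vale.Agent.P251.M Vale.Agent.P251.M.EvenSpheres
  Vale.Agent.P251.S Vale.Agent.P251.F Vale.Agent.P251.I Vale.Agent.P251.Z Vale.Agent.P251.X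
  Vale.Agent.P257 VT Qt

variable {T : Type u} [Category.{v} T] [Preadditive T] [HasZeroObject T]
    [HasShift T ℤ] [∀ n : ℤ, (shiftFunctor T n).Additive] [Pretriangulated T] [IsTriangulated T]
    [MonoidalCategory T] [SymmetricCategory T] [TensorTriangulated T] [MonoidalClosed T]
    [HasCoproducts.{0} T] [HasProducts.{0} T] [StableCat T] {D : MUData T}
  {Fc : SpaceFunctor T} {e : Fc.S.obj CCF ≅ (stdEven T).L}
  {p : ℕ} [hp : Fact p.Prime] {F : Type} [Field F] (hF : Nat.card F = p ^ 2) (H : MUUniv e D)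
  {χ : HRing (stdEven T) D.R →+* F} (hχ : D.law.map χ = H0 p F)

include hχ in
/-- the automorphism of the law given by a point -/
theorem aut_of {B : Type*} [CommRing B] [Algebra F B]
    (α : HRing (stdEven T) (D.R ⊗ D.R) →+* B) (β : F →+* B) (b : Bˣ)
    (hL : α.comp (ηL D) = (algebraMap F B).comp χ) (hR : α.comp (ηR D) = scl b (β.comp χ)) :
    (InvSeries.lin b * InvSeries.map α (uSer D)) • (H0 p F).map (algebraMap F B) =
      (H0 p F).map β := by
  have h := law_ηR α
  rw [hL, hR, law_scl, ← Law.map_map, ← Law.map_map, hχ] at h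
  rw [mul_smul, ← h, smul_inv_smul]

include hF H hχ

theorem fix_of {B : Type*} [CommRing B] [Algebra F B]
    (α : HRing (stdEven T) (D.R ⊗ D.R) →+* B) (β : F →+* B) (b : Bˣ)
    (hL : α.comp (ηL D) = (algebraMap F B).comp χ) (hR : α.comp (ηR D) = scl b (β.comp χ)) :
    (b : B) ^ Nat.card F = b ∧ ∀ s, α s ^ Nat.card F = α s := by
  have : Finite F := Nat.finite_of_card_ne_zero (hF ▸ pow_ne_zero 2 hp.out.ne_zero)
  have h1 := aut_of hχ α β b hL hR
  have h2 : ∀ φ : F →+* B, P217.multSeries ((H0 p F).map φ).toFG p = PowerSeries.X ^ Nat.card F :=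
    fun φ => by
      rw [Law.map_toFG, ← map_multSeries, (honda hF).mult, map_pow, PowerSeries.map_X, hF]
  have h3 : ∀ n, (InvSeries.lin b * InvSeries.map α (uSer D)).c n ∈ fixSub F B := fun n =>
    coeff_mem_fixSub (h2 _) (h2 _) ((InvSeries.smul_eq_iff_isHom _ _ _).1 h1) _
  have h4 : ∀ n, (InvSeries.lin b * InvSeries.map α (uSer D)).c n = b * α ((uSer D).c n) :=
    fun n => by
      have hs := (InvSeries.map α (uSer D)).hs
      rw [← InvSeries.c_map, InvSeries.c, InvSeries.mul_val, InvSeries.lin_val,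
        PowerSeries.subst_mul hs, PowerSeries.subst_X hs, PowerSeries.subst_C]
      exact PowerSeries.coeff_C_mul _ _ _
  have h5 : (b : B) ^ Nat.card F = b := by
    have h := h3 0
    rwa [h4, uSer, mem_strict.1 (H80.ser_strict _ _), map_one, _root_.mul_one] at h
  refine ⟨h5, fun s => ?_⟩
  obtain ⟨f, rfl⟩ := (epsK_bijective (𝟙 D.R) H).2 s
  change _ ∈ fixSub F B
  induction f using MvPolynomial.induction_on with
  | C z =>
    rw [epsH_C]
    exact (RingHom.congr_fun hL z).symm ▸ (fixSub F B).algebraMap_mem _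
  | add f g hf hg => rw [map_add, map_add]; exact add_mem hf hg
  | mul_X f i hf =>
    rw [map_mul, map_mul, epsH_X, ← uSer_c]
    refine mul_mem hf (b.isUnit.mul_left_cancel ?_)
    have h := h3 (i + 1)
    rwa [h4, mem_fixSub, mul_pow, h5] at h

/-- a point with values in the field comes from the group -/
theorem exists_pair (α : HRing (stdEven T) (D.R ⊗ D.R) →+* F) (β : F →+* F) (b : Fˣ)
    (hL : α.comp (ηL D) = χ) (hR : α.comp (ηR D) = scl b (β.comp χ)) :
    ∃ g : LP p F, α = clsG H χ (red hF g).γ.str⁻¹ ∧ (∀ c, β c = resAut hF g.φ c) ∧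
      b = (red hF g).γ.lead⁻¹ := by
  have : Finite F := Nat.finite_of_card_ne_zero (hF ▸ pow_ne_zero 2 hp.out.ne_zero)
  have h1 := aut_of hχ α β b hL hR
  rw [Algebra.algebraMap_self, Law.map_id] at h1
  have hs : InvSeries.map α (uSer D) ∈ strict F := map_mem_strict _ (H80.ser_strict _ _)
  obtain ⟨g, hg⟩ := red_surjective hF ⟨RingEquiv.ofBijective β
    (Finite.injective_iff_bijective.1 β.injective), _, inv_smul_eq_iff.2 h1.symm⟩
  have h2 : (red hF g).γ = (InvSeries.lin b * InvSeries.map α (uSer D))⁻¹ := by rw [hg]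
  have h3 : b = (red hF g).γ.lead⁻¹ := by
    rw [h2, InvSeries.lead_inv, inv_inv, InvSeries.lead_mul, InvSeries.lead_lin,
      InvSeries.lead_eq_one hs, _root_.mul_one]
  refine ⟨g, ringHom_extG H (by rw [hL, clsG_ηL]) ?_, fun c => by rw [← red_φ, hg]; rfl, h3⟩
  rw [clsG_uSer H _ (inv_mem (InvSeries.str_mem _)), InvSeries.str, ← map_inv, ← h3, h2]
  group

/-- **Points.** -/
theorem pts {P : Type*} [CommRing P] [Algebra F P] (α : HRing (stdEven T) (D.R ⊗ D.R) →+* P)
    (β : F →+* P) (w : Pˣ) (hL : α.comp (ηL D) = (algebraMap F P).comp χ)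
    (hR : ∀ (n a : ℤ) (x : (stdEven T).S n ⟶ D.R), n = (p - 1 : ℕ) * a →
      α (ηR D (HRing.of _ _ n x)) = β (χ (HRing.of _ _ n x)) * (w ^ a : Pˣ))
    (hR' : ∀ (n : ℤ) (x : (stdEven T).S n ⟶ D.R), ¬ ((p - 1 : ℕ) : ℤ) ∣ n →
      α (ηR D (HRing.of _ _ n x)) = 0 ∧ χ (HRing.of _ _ n x) = 0)
    (gen : ∀ S : Subalgebra F P, (∀ s, α s ∈ S) → (∀ c, β c ∈ S) → (w : P) ∈ S →
      ((w⁻¹ : Pˣ) : P) ∈ S → ∀ s, s ∈ S) {s : P} (hs : s ≠ 0) :
    ∃ (g : LP p F) (θ : P →ₐ[F] F), θ s ≠ 0 ∧ (∀ x, θ (α x) = clsG H χ (red hF g).γ.str⁻¹ x) ∧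
      (∀ c, θ (β c) = resAut hF g.φ c) ∧
      θ w = (((red hF g).γ.lead⁻¹ ^ (p - 1) : Fˣ) : F) := by
  have : Finite F := Nat.finite_of_card_ne_zero (hF ▸ pow_ne_zero 2 hp.out.ne_zero)
  have : Nontrivial P := nontrivial_of_ne _ _ hs
  have hp1 : p - 1 ≠ 0 := by have := hp.out.two_le; omega
  let f : Polynomial P := Polynomial.X ^ (p - 1) - Polynomial.C (w : P)
  let j : P →ₐ[F] AdjoinRoot f := IsScalarTower.toAlgHom F P (AdjoinRoot f)
  have hj : j s ≠ 0 := fun h => (Polynomial.monic_X_pow_sub_C (w : P) hp1).not_dvd_of_degree_lt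
    (Polynomial.C_ne_zero.2 hs) (by
      rw [Polynomial.degree_C hs, Polynomial.degree_X_pow_sub_C (Nat.pos_of_ne_zero hp1)]
      exact_mod_cast Nat.pos_of_ne_zero hp1) (AdjoinRoot.mk_eq_zero.1 h)
  have hr : AdjoinRoot.root f ^ (p - 1) = j w := by
    have h := AdjoinRoot.eval₂_root f
    rwa [Polynomial.eval₂_sub, Polynomial.eval₂_X_pow, Polynomial.eval₂_C, sub_eq_zero] at h
  obtain ⟨b, hb⟩ : IsUnit (AdjoinRoot.root f) :=
    (isUnit_pow_iff hp1).1 (hr ▸ w.isUnit.map j)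
  have hbw : b ^ (p - 1) = Units.map (j : P →* AdjoinRoot f) w :=
    Units.ext (by rw [Units.val_pow_eq_pow_val, hb, hr]; rfl)
  have e1 : ((j : P →+* AdjoinRoot f).comp α).comp (ηL D) = (algebraMap F _).comp χ := by
    rw [RingHom.comp_assoc, hL, ← RingHom.comp_assoc, j.comp_algebraMap]
  have e2 : ((j : P →+* AdjoinRoot f).comp α).comp (ηR D) =
      scl b (((j : P →+* AdjoinRoot f).comp β).comp χ) := by
    refine HRing.ringHom_ext fun n x => ?_
    rw [scl_of]
    simp only [RingHom.comp_apply]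
    by_cases hn : ((p - 1 : ℕ) : ℤ) ∣ n
    · obtain ⟨a, ha⟩ := hn
      have h : b ^ n = Units.map (j : P →* AdjoinRoot f) (w ^ a) := by
        rw [ha, zpow_mul, zpow_natCast, hbw, map_zpow]
      rw [hR n a x ha, map_mul, mul_comm, h]
      rfl
    · rw [(hR' n x hn).1, (hR' n x hn).2, map_zero, map_zero, map_zero, mul_zero]
  obtain ⟨f1, f2⟩ := fix_of hF H hχ _ _ b e1 e2
  have f3 : b ^ Nat.card F = b := Units.ext f1
  have f4 : ∀ x, j x ∈ fixSub F (AdjoinRoot f) := by
    refine gen ((fixSub F _).comap j) f2 (fun c => ?_) ?_ ?_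
    · change j (β c) ^ _ = j (β c)
      rw [← map_pow, ← map_pow, hF, pow_card_eq hF]
    · change j w ∈ fixSub F _
      rw [← hr, ← hb]
      exact pow_mem f1 _
    · change ((Units.map (j : P →* AdjoinRoot f) w⁻¹ : (AdjoinRoot f)ˣ) : AdjoinRoot f) ^ _ =
        (Units.map (j : P →* AdjoinRoot f) w⁻¹ : (AdjoinRoot f)ˣ)
      rw [← Units.val_pow_eq_pow_val, map_inv, ← hbw, inv_pow, ← pow_mul, mul_comm, pow_mul, f3]
  have f5 : ∀ y : AdjoinRoot f, y ∈ fixSub F (AdjoinRoot f) := fun y => by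
    induction y using AdjoinRoot.induction_on with
    | ih q =>
      induction q using Polynomial.induction_on' with
      | add q q' h h' => rw [map_add]; exact add_mem h h'
      | monomial n a =>
        rw [← Polynomial.C_mul_X_pow_eq_monomial, map_mul, map_pow, AdjoinRoot.mk_X, ← hb]
        exact mul_mem (f4 a) (pow_mem f1 _)
  obtain ⟨φ, hφ⟩ : ∃ φ : AdjoinRoot f →ₐ[F] F, φ (j s) ≠ 0 := exists_point_ne f5 hj
  obtain ⟨g, g1, g2, g3⟩ := exists_pair hF H hχ
    ((φ : AdjoinRoot f →+* F).comp ((j : P →+* AdjoinRoot f).comp α))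
    ((φ : AdjoinRoot f →+* F).comp ((j : P →+* AdjoinRoot f).comp β))
    (Units.map ((φ : AdjoinRoot f →+* F) : AdjoinRoot f →* F) b)
    (by rw [RingHom.comp_assoc, e1, ← RingHom.comp_assoc, φ.comp_algebraMap]; rfl)
    (by rw [RingHom.comp_assoc, e2, comp_scl]; rfl)
  refine ⟨g, φ.comp j, hφ, fun x => by rw [← g1]; rfl, g2, ?_⟩
  rw [← g3, ← map_pow, hbw]
  rfl

end Vale.Agent.P221X.EV
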