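import Vale.Agent.P221X.GD.Big
import Vale.Agent.P251.F.Framed

/-!
# P221X, block EV: the coordinates on the big group separate the cosets
-/

noncomputable section

namespace Vale.Agent.P221X.EV

open Vale.Agent.P251.F Qt PowerSeries

variable {p : ℕ} [hp : Fact p.Prime] {F : Type} [Field F]

/-- a function which is determined by finitely many functions is a polynomial in them -/
theorem mem_of_factor [Finite F] {X ι : Type*} [Finite ι] (B : Subalgebra F (X → F))
    (κ : ι → X → F) (hκ : ∀ j, κ j ∈ B) (h : X → F)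
    (hh : ∀ x y, (∀ j, κ j x = κ j y) → h x = h y) : h ∈ B := by
  classical
  have := Fintype.ofFinite F
  have := Fintype.ofFinite ι
  have hq : Fintype.card F - 1 ≠ 0 := by have := Fintype.one_lt_card (α := F); omega
  have hf : h.FactorsThrough fun x j => κ j x := fun x y e => hh x y (congrFun e)
  have e : h = ∑ a : ι → F, Function.extend (fun x j => κ j x) h 0 a •
      ∏ j, (1 - (κ j - algebraMap F (X → F) (a j)) ^ (Fintype.card F - 1)) := by
    funext x
    simp only [Finset.sum_apply, Pi.smul_apply, Finset.prod_apply, Pi.sub_apply, Pi.one_apply,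
      Pi.pow_apply, Pi.algebraMap_apply, Algebra.algebraMap_self, RingHom.id_apply, smul_eq_mul]
    rw [Finset.sum_eq_single fun j => κ j x]
    · simp [hf.extend_apply, hq]
    · intro a _ ha
      obtain ⟨j, hj⟩ := Function.ne_iff.1 ha
      rw [Finset.prod_eq_zero (Finset.mem_univ j), mul_zero]
      rw [FiniteField.pow_card_sub_one_eq_one _ (sub_ne_zero.2 hj.symm), sub_self]
    · simp
  rw [e]
  exact B.sum_mem fun a _ => B.smul_mem (B.prod_mem fun j _ =>
    B.sub_mem B.one_mem (B.pow_mem (B.sub_mem (hκ j) (B.algebraMap_mem _)) _)) _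

theorem c_lin_mul {B : Type*} [CommRing B] (l : Bˣ) (f : InvSeries B) (n : ℕ) :
    (InvSeries.lin l * f).c n = l * f.c n := by
  rw [InvSeries.c, InvSeries.mul_val, InvSeries.lin_val, subst_mul f.hs, subst_X f.hs, subst_C]
  exact coeff_C_mul _ _ _

theorem inv_eq_lin_mul {B : Type*} [CommRing B] (f : InvSeries B) :
    f⁻¹ = InvSeries.lin f.lead⁻¹ * f.str⁻¹ := by
  rw [InvSeries.str, mul_inv_rev, inv_inv, map_inv, inv_mul_cancel_left]

/-- automorphisms as invertible series -/
def toSer : AutF (H0 p F).toFG →* InvSeries F where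
  toFun a := (ofAut a).γ
  map_one' := rfl
  map_mul' _ _ := rfl

theorem cf_eq (a : AutF (H0 p F).toFG) (n : ℕ) : a.cf (n + 1) = (toSer a).c n := rfl

variable [CharP F p] (hF : Nat.card F = p ^ 2)

theorem mk_lift_mem {i : ℕ} {a : AutF (H0 p F).toFG}
    (h : a ∈ AutF.congr (H0 p F).toFG (p ^ (i + 1))) :
    Big.mk hF (lift hF a) ∈ ProG.N (G := Big hF) i := by
  have h1 : 1 < p ^ (i + 1) := Nat.one_lt_pow (by omega) hp.out.one_lt
  refine ⟨⟨AutF.toUnits a, (h 1 h1).trans (coeff_one_X (R := F))⟩, ?_, rfl⟩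
  exact (Q0 hF).I_anti (Nat.le_succ i) ((honda hF).mem_congr_iff.1 h)

/-- **The coordinates separate the cosets.** -/
theorem sep (i : ℕ) {g g' : LP p F} (h1 : resAut hF g.φ = resAut hF g'.φ)
    (h2 : (red hF g).γ.lead ^ (p - 1) = (red hF g').γ.lead ^ (p - 1))
    (h3 : ∀ j < p ^ (i + 1), (red hF g).γ.str⁻¹.c j = (red hF g').γ.str⁻¹.c j) :
    (Big.mk hF g)⁻¹ * Big.mk hF g' ∈ ProG.N (G := Big hF) i := by
  let c : Fˣ := (red hF g).γ.lead⁻¹ * (red hF g').γ.lead
  have hc : c ^ (p - 1) = 1 := by rw [mul_pow, inv_pow, h2, inv_mul_cancel]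
  let e : AutF (H0 p F).toFG := AutF.toUnits.symm ((Q0 hF).tu c)
  have he : toSer e = InvSeries.lin c := InvSeries.ext rfl
  have h4 : Agr AutF.cf (p ^ (i + 1)) (toAut (red hF g))⁻¹ (e * (toAut (red hF g'))⁻¹) := by
    rintro (_ | j) hj
    · exact (coeff_zero_eq_constantCoeff_apply _).trans ((AutF.constantCoeff_val _).trans
        ((coeff_zero_eq_constantCoeff_apply _).trans (AutF.constantCoeff_val _)).symm)
    · rw [cf_eq, cf_eq, map_mul, map_inv, map_inv, he]
      change (_ * (red hF g').γ⁻¹).c j = (red hF g).γ⁻¹.c j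
      rw [inv_eq_lin_mul, inv_eq_lin_mul (red hF g).γ, ← mul_assoc, ← map_mul, c_lin_mul,
        c_lin_mul, h3 j (by omega), mul_inv_cancel_right]
  have h5 := mk_lift_mem hF (AutF.agr_iff_inv_mul_mem.1 h4)
  have h6 : Big.mk hF (lift hF e) = 1 :=
    (Big.mk_eq_one hF).2 ((mem_mu hF).2 ⟨c, hc, (lfu_tu hF c).symm⟩)
  rw [inv_inv, map_mul, map_mul, map_mul, map_mul, h6, one_mul, map_inv, map_inv] at h5
  have h7 := (ProG.normal i).conj_mem _ (inv_mem h5) (Big.mk hF g)⁻¹
  convert h7 using 1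
  conv_lhs => rw [eq_lift_mul hF g', ← h1]
  conv_rhs => rw [inv_inv]; enter [2]; rw [eq_lift_mul hF g]
  simp only [map_mul]
  group

end Vale.Agent.P221X.EV
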