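import Vale.Agent.P221X.EV.Ev
import Vale.Agent.P221X.EV.Sep
import Vale.Agent.P251.F.AutRep

/-!
# P221X, block EV: the row PTS
-/

set_option linter.unusedSectionVars false

noncomputable section

namespace Vale.Agent.P221X.EV

open Vale.Agent.P251.F Qt TC VT PowerSeries TensorProduct ProG

/-- the coproduct of two commutative rings -/
def TT (R S : Type) [CommRing R] [CommRing S] : Type := R ⊗[ℤ] S

namespace TT

variable {R S C : Type} [CommRing R] [CommRing S] [Ring C]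

instance : CommRing (TT R S) := inferInstanceAs (CommRing (R ⊗[ℤ] S))

/-- the left inclusion -/
def inl : R →+* TT R S := Algebra.TensorProduct.includeLeftRingHom (R := ℤ)

/-- the right inclusion -/
def inr : S →+* TT R S := (Algebra.TensorProduct.includeRight : S →ₐ[ℤ] R ⊗[ℤ] S).toRingHom

theorem ind {motive : TT R S → Prop} (a : TT R S) (l : ∀ r, motive (inl r))
    (r : ∀ s, motive (inr s)) (add : ∀ x y, motive x → motive y → motive (x + y))
    (mul : ∀ x y, motive x → motive y → motive (x * y)) : motive a :=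
  TensorProduct.induction_on (motive := motive) a (map_zero (inl (R := R) (S := S)) ▸ l 0)
    (fun x y => ((Algebra.TensorProduct.tmul_mul_tmul (R := ℤ) x 1 1 y).trans
      (congrArg₂ _ (mul_one x) (one_mul y))) ▸ mul _ _ (l x) (r y)) add

variable (f : R →+* C) (g : S →+* C) (h : ∀ a b, Commute (f a) (g b))

/-- the universal property -/
def lift : TT R S →+* C := (Algebra.TensorProduct.lift f.toIntAlgHom g.toIntAlgHom h).toRingHom

theorem lift_l (r : R) : lift f g h (inl r) = f r :=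
  show f r * g 1 = _ by rw [map_one, mul_one]

theorem lift_r (s : S) : lift f g h (inr s) = g s :=
  show f 1 * g s = _ by rw [map_one, one_mul]

end TT

variable {p : ℕ} [hp : Fact p.Prime] {F : Type} [Field F] [CharP F p] {G G' : Type} [Group G]
  [ProG G] [MulSemiringAction G F⟦X⟧] [MulSemiringAction G (KK F)] [Group G'] [ProG G']
  [MulSemiringAction G' (KK F)] (B : BG p F G G')
  {A : Type} [CommRing A] (χ : A →+* F⟦X⟧) (χT : A →+* OInv F⟦X⟧)

/-- the operators from `OInv O` -/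
def rho : OInv F⟦X⟧ →+* Module.End F⟦X⟧ (BC χ (TK χT)) where
  toFun t := BC.map χ (lin (χT := χT) (fun _ _ => rfl) (fun _ _ => rfl) (LinearMap.lsmul _ _ t))
  map_one' := BC.hom_ext fun m => (BC.map_mk _ m).trans (congrArg _ (one_smul (OInv F⟦X⟧) m))
  map_mul' s t := BC.hom_ext fun m => by
    rw [Module.End.mul_apply, BC.map_mk, BC.map_mk, BC.map_mk]
    exact congrArg _ (mul_smul s t m)
  map_zero' := BC.hom_ext fun m =>
    (BC.map_mk _ m).trans ((congrArg (BC.mk χ) (zero_smul (OInv F⟦X⟧) m)).trans (map_zero (BC.mk χ)))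
  map_add' s t := BC.hom_ext fun m => by
    rw [LinearMap.add_apply, BC.map_mk, BC.map_mk, BC.map_mk, ← map_add]
    exact congrArg _ (add_smul s t m)

theorem rho_mk (t : OInv F⟦X⟧) (m : TK χT) : rho χ χT t (BC.mk χ m) = BC.mk χ (t • m) :=
  BC.map_mk (χ := χ) (lin (χT := χT) (fun _ _ => rfl) (fun _ _ => rfl) (LinearMap.lsmul _ _ t)) m

/-- the ring of operators -/
abbrev PP (F : Type) [Field F] : Type := TT F⟦X⟧ (OInv F⟦X⟧)

instance : Algebra F (PP F) := (TT.inl.comp C).toAlgebra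

/-- its action -/
def op : PP F →+* Module.End F⟦X⟧ (BC χ (TK χT)) :=
  TT.lift (algebraMap _ _) (rho χ χT) fun f _ => Algebra.commutes f _

theorem op_l (f : F⟦X⟧) (z : BC χ (TK χT)) : op χ χT (TT.inl f) z = f • z :=
  LinearMap.congr_fun (TT.lift_l _ _ _ f) z

theorem op_r (t : OInv F⟦X⟧) (m : TK χT) : op χ χT (TT.inr t) (BC.mk χ m) = BC.mk χ (t • m) :=
  (LinearMap.congr_fun (TT.lift_r _ _ _ t) _).trans (rho_mk χ χT t m)

/-- the points -/
def ptP (g : G) : PP F →+* F⟦X⟧ := TT.lift (RingHom.id _) (B.pt g) fun _ _ => Commute.all _ _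

theorem ptP_l (g : G) (f : F⟦X⟧) : ptP B g (TT.inl f) = f := TT.lift_l _ _ _ f

theorem ptP_r (g : G) (t : OInv F⟦X⟧) : ptP B g (TT.inr t) = B.pt g t := TT.lift_r _ _ _ t

/-- the generator of the socle -/
def z0 : BC χ (TK χT) := BC.mk χ (TK.tm χT 1 (KO.mk (KK.uz (-1))))

/-- its annihilator -/
def ann : Ideal (PP F) where
  carrier := {a | op χ χT a (z0 χ χT) = 0}
  add_mem' := fun {a b} ha hb => by
    change op χ χT (a + b) _ = 0
    rw [map_add, LinearMap.add_apply, ha, hb, add_zero]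
  zero_mem' := by change op χ χT 0 _ = 0; rw [map_zero, LinearMap.zero_apply]
  smul_mem' c a ha := by
    change op χ χT (c * a) _ = 0
    rw [map_mul, Module.End.mul_apply, ha, map_zero]

theorem X_inv : (X : F⟦X⟧) • KO.mk (KK.uz (-1) : KK F) = 0 := by
  rw [KO.smul_mk, KK.algebraMap_X, DEP.uz_neg, KO.mk_eq_zero, ← KK.uz_zero]
  exact KK.uz_mem_ge 0

variable {χ χT} {L : Laz →+* A} (h1 : χ.comp L = Laz.lift (FO p F))
  (h2 : χT.comp L = Laz.lift (genLaw (FO p F)))

include h1 h2 in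
theorem X_z0 : (X : F⟦X⟧) • z0 χ χT = 0 := by
  obtain ⟨a, ε, e1, e2⟩ := exists_eps h1 h2
  rw [z0, ← ε.mul_inv, X_smul_mk e1 e2, X_inv, tm_zero, map_zero]

include h1 h2 in
theorem exists_op {z : BC χ (TK χT)} (hz : (X : F⟦X⟧) • z = 0) :
    ∃ a, op χ χT a (z0 χ χT) = z := by
  obtain ⟨a, ε, e1, e2⟩ := exists_eps h1 h2
  refine soc e1 e2
    { carrier := {z | ∃ a, op χ χT a (z0 χ χT) = z}
      add_mem' := fun ⟨a, ha⟩ ⟨b, hb⟩ => ⟨a + b, by rw [map_add, LinearMap.add_apply, ha, hb]⟩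
      zero_mem' := ⟨0, by rw [map_zero, LinearMap.zero_apply]⟩
      smul_mem' := fun c _ ⟨a, ha⟩ => ⟨TT.inl c * a, by
        rw [map_mul, Module.End.mul_apply, ha, op_l]⟩ } (fun t => ⟨TT.inr t, ?_⟩) hz
  rw [z0, op_r, smul_tm, mul_one]

include h1 h2 in
/-- **Points.** -/
theorem exists_pt {a : PP F} (ha : op χ χT a (z0 χ χT) ≠ 0) :
    ∃ g, constantCoeff (ptP B g a) ≠ 0 := by
  have hF := B.card
  have : Finite F := Nat.finite_of_card_ne_zero (hF ▸ pow_ne_zero 2 hp.out.ne_zero)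
  let q := Ideal.Quotient.mkₐ F (ann χ χT)
  let l : F⟦X⟧ →+* PP F ⧸ ann χ χT := (q : PP F →+* _).comp TT.inl
  let α : OInv F⟦X⟧ →+* PP F ⧸ ann χ χT := (q : PP F →+* _).comp TT.inr
  have l1 : l X = 0 := Ideal.Quotient.eq_zero_iff_mem.2 ((op_l χ χT X _).trans (X_z0 h1 h2))
  have l2 : ∀ f, l f = algebraMap F _ (constantCoeff f) := hom_soc l l1
  have a1 : α (OInv.inc _ X) = 0 := Ideal.Quotient.eq_zero_iff_mem.2 (by
    change op χ χT (TT.inr (OInv.inc _ X)) _ = 0
    rw [z0, op_r, ← tm_smul, X_inv, tm_zero, map_zero])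
  have a2 := hom_soc (α.comp (OInv.inc _)) a1
  have a3 : α.comp χT = l.comp χ := RingHom.ext fun a => Ideal.Quotient.eq.2 (by
    change op χ χT (TT.inr (χT a) - TT.inl (χ a)) _ = 0
    rw [map_sub, LinearMap.sub_apply, op_l, z0, op_r, ← BC.mk_smul]
    exact sub_self _)
  have hz : ∀ (φ : F⟦X⟧ →+* PP F ⧸ ann χ χT) (β : F →+* PP F ⧸ ann χ χT), φ X = 0 →
      (FO p F).map φ = (H0 p F).map β := fun φ β h => by
    rw [FO_map, H0_map]
    exact P261Z.N.hzn_congr p fun _ _ _ => h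
  let β : F →+* PP F ⧸ ann χ χT := (α.comp (OInv.inc _)).comp C
  have law : InvSeries.map α (OInv.f _) • (H0 p F).map β = (H0 p F).map (algebraMap F _) := by
    have h := congrArg (fun φ : A →+* PP F ⧸ ann χ χT => Laz.univ.map (φ.comp L)) a3
    simp only [RingHom.comp_assoc, h1, h2, Laz.comp_lift, Laz.univ_map_lift] at h
    rwa [genLaw, InvSeries.map_smul, Law.map_map, hz _ β a1, hz _ (algebraMap F _) l1] at h
  have m2 : ∀ φ : F →+* PP F ⧸ ann χ χT,
      P217.multSeries ((H0 p F).map φ).toFG p = X ^ Nat.card F := fun φ => by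
    rw [Law.map_toFG, ← map_multSeries, (honda hF).mult, map_pow, map_X, hF]
  have f1 : ∀ n, α (OInv.cc _ n) ∈ fixSub F (PP F ⧸ ann χ χT) := fun n => by
    rw [← OInv.c_f, ← InvSeries.c_map]
    exact coeff_mem_fixSub (m2 _) (m2 _) ((InvSeries.smul_eq_iff_isHom _ _ _).1 law) _
  have f2 : ∀ t, α t ∈ fixSub F (PP F ⧸ ann χ χT) := by
    refine oinv_top ((fixSub F _).toSubring.comap α) (fun f => ?_) f1 ?_
    · change (α.comp (OInv.inc _)) f ^ _ = (α.comp (OInv.inc _)) f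
      rw [a2, ← map_pow, ← map_pow, hF, pow_card_eq hF]
    · have h : Units.map (α : _ →* _) (OInv.f F⟦X⟧).lead ^ Nat.card F =
          Units.map (α : _ →* _) (OInv.f F⟦X⟧).lead := Units.ext (by
        have h := f1 0
        rwa [← OInv.c_f] at h)
      have h' := congrArg (fun u : (PP F ⧸ ann χ χT)ˣ => (u⁻¹).val) h
      rwa [← inv_pow, ← map_inv, Units.val_pow_eq_pow_val] at h'
  have f3 : ∀ s : PP F ⧸ ann χ χT, s ∈ fixSub F (PP F ⧸ ann χ χT) := fun s => by
    obtain ⟨a, rfl⟩ := Ideal.Quotient.mkₐ_surjective F _ s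
    induction a using TT.ind with
    | l f => exact (l2 f).symm ▸ Subalgebra.algebraMap_mem _ _
    | r t => exact f2 t
    | add x y hx hy => rw [map_add]; exact add_mem hx hy
    | mul x y hx hy => rw [map_mul]; exact mul_mem hx hy
  obtain ⟨θ, hθ⟩ : ∃ θ : (PP F ⧸ ann χ χT) →ₐ[F] F, θ (q a) ≠ 0 :=
    exists_point_ne f3 fun h => ha (Ideal.Quotient.eq_zero_iff_mem.1 h)
  have law' := congrArg (Law.map (θ : PP F ⧸ ann χ χT →+* F)) law
  rw [InvSeries.map_smul, Law.map_map, Law.map_map, θ.comp_algebraMap, Algebra.algebraMap_self,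
    Law.map_id, InvSeries.map_map] at law'
  obtain ⟨g, hg⟩ := red_surjective hF ⟨RingEquiv.ofBijective _
    (Finite.injective_iff_bijective.1 ((θ : PP F ⧸ ann χ χT →+* F).comp β).injective), _, law'⟩
  obtain ⟨g, rfl⟩ := B.emb.surjective g
  have e : (θ : PP F ⧸ ann χ χT →+* F).comp α = (constantCoeff (R := F)).comp (B.pt g) := by
    refine OInv.hom_ext (RingHom.ext fun f => ?_) ?_
    · change θ ((α.comp (OInv.inc _)) f) = constantCoeff (B.pt g (OInv.inc _ f))
      rw [a2, pt_inc]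
      refine Eq.trans ?_ (RingHom.congr_fun (cc_comp hF (B.emb g).φ) f).symm
      rw [← red_φ, hg]
      rfl
    · rw [← InvSeries.map_map (B.pt g), BG.pt, OInv.map_lift_f, ← red_γ hF, hg]
  refine ⟨g, fun h => hθ (Eq.trans ?_ h)⟩
  clear hθ h ha
  induction a using TT.ind with
  | l f => rw [ptP_l]; exact (congrArg θ (l2 f)).trans (θ.commutes _)
  | r t => rw [ptP_r]; exact RingHom.congr_fun e t
  | add x y hx hy => simp only [map_add, hx, hy]
  | mul x y hx hy => simp only [map_mul, hx, hy]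

theorem sep' (i : ℕ) : ∃ n, ∀ g g' : G,
    (∀ c, constantCoeff ((B.emb g).φ (C c)) = constantCoeff ((B.emb g').φ (C c))) →
    (∀ k ≤ n, constantCoeff ((B.emb g).γ.c k) = constantCoeff ((B.emb g').γ.c k)) →
      g⁻¹ * g' ∈ N (G := G) i := by
  obtain ⟨n, hn⟩ := B.cof2 i
  refine ⟨n, fun g g' e1 e2 => hn _ ⟨fun c => ?_, fun k hk => X_dvd_iff.2 ?_⟩⟩
  · rw [map_mul, map_inv, LPair.mul_φ, LPair.inv_φ]
    refine (B.emb g).φ.symm_apply_eq.2 ((aut_C B.card (B.emb g').φ c).trans ?_)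
    rw [← e1, ← aut_C B.card]
  · have h := c_mul_congr (red B.card (B.emb g)).γ⁻¹ (g := (red B.card (B.emb g)).γ)
      (g' := (red B.card (B.emb g')).γ) (n := n) (fun k hk => by
        rw [red_γ, red_γ, InvSeries.c_map, InvSeries.c_map, e2 k hk]) k hk
    rw [map_sub, ← InvSeries.c_map, ← InvSeries.c_map, map_one, ← red_γ B.card, map_mul, map_inv,
      map_mul, map_inv, LPair.mul_γ, LPair.inv_γ, LPair.inv_φ, ← map_mul, InvSeries.c_map, h,
      inv_mul_cancel, ← InvSeries.c_map, map_one, sub_self]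

variable [ActK G F] (h : ∀ g, (B.pt g).comp χT = χ)

theorem Ev_op (g : G) (a : PP F) (z : BC χ (TK χT)) :
    Ev B h (op χ χT a z) g = ptP B g a • Ev B h z g := by
  induction a using TT.ind generalizing z with
  | l f => rw [op_l, ptP_l, map_smul, LC.smul_apply]
  | add x y hx hy => simp only [map_add, LinearMap.add_apply, add_smul, LC.add_apply, hx, hy]
  | mul x y hx hy => rw [map_mul, Module.End.mul_apply, hx, hy, map_mul, mul_smul]
  | r t =>
    rw [ptP_r]
    induction z using BC.ind with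
    | zero => simp only [map_zero, smul_zero, LC.zero_apply]
    | add x y hx hy => simp only [map_add, smul_add, LC.add_apply, hx, hy]
    | smul b m =>
      rw [map_smul, map_smul, map_smul, op_r, LC.smul_apply, LC.smul_apply, Ev_mk, Ev_mk,
        evg_smul, smul_comm]

theorem Ev_z0 (g : G) : Ev B h (z0 χ χT) g = g • KO.mk (KK.uz (-1) : KK F) := by
  rw [z0, Ev_mk, evg_tm, map_one, one_smul]

theorem smul_ne {y : KO F} (hy : y ≠ 0) {f : F⟦X⟧} (hf : constantCoeff f ≠ 0) : f • y ≠ 0 :=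
  fun e => hy ((isUnit_iff_constantCoeff.2 hf.isUnit).smul_eq_zero.1 e)

theorem exists_C {x y : KO F} (hx : (X : F⟦X⟧) • x = 0) (hy : (X : F⟦X⟧) • y = 0) (h0 : y ≠ 0) :
    ∃ c : F, x = (C c : F⟦X⟧) • y := by
  obtain ⟨f, rfl⟩ := KO.exists_smul (n := 1) (x := x) (by rwa [pow_one])
  obtain ⟨e, rfl⟩ := KO.exists_smul (n := 1) (x := y) (by rwa [pow_one])
  have h1 : (X : F⟦X⟧) • KO.mk (KK.uz (-((1 : ℕ) : ℤ)) : KK F) = 0 := X_inv
  rw [smul_soc h1 e] at h0 ⊢
  have h2 : constantCoeff e ≠ 0 := fun h => h0 (by rw [h, map_zero, zero_smul])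
  exact ⟨constantCoeff f / constantCoeff e, by
    rw [smul_soc h1 f, smul_smul, ← map_mul, div_mul_cancel₀ _ h2]⟩

include h1 h2

theorem Ev_inj : Function.Injective (Ev B h) := by
  obtain ⟨a, ε, e1, e2⟩ := exists_eps h1 h2
  refine (injective_iff_map_eq_zero _).2 fun z hz => ?_
  obtain ⟨n, hn⟩ := tors e1 e2 z
  induction n generalizing z with
  | zero => rwa [pow_zero, one_smul] at hn
  | succ n ih =>
    obtain ⟨b, rfl⟩ := exists_op h1 h2 (ih ((X : F⟦X⟧) • z) (by rw [map_smul, hz, smul_zero])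
      (by rwa [← mul_smul, ← pow_succ]))
    by_contra h0
    obtain ⟨g, hg⟩ := exists_pt B h1 h2 h0
    refine smul_ne ((smul_ne_zero_iff_ne g).2 KO.mk_inv_ne) hg ?_
    rw [← Ev_z0 B h, ← Ev_op, hz, LC.zero_apply]

theorem Ev_soc {f : LC G (KO F)} (hf : (X : F⟦X⟧) • f = 0) : ∃ z, Ev B h z = f := by
  have : Finite F := Nat.finite_of_card_ne_zero (B.card ▸ pow_ne_zero 2 hp.out.ne_zero)
  have w0 : ∀ g : G, g • KO.mk (KK.uz (-1) : KK F) ≠ 0 :=
    fun g => (smul_ne_zero_iff_ne g).2 KO.mk_inv_ne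
  have w1 : ∀ g : G, (X : F⟦X⟧) • g • KO.mk (KK.uz (-1) : KK F) = 0 := fun g => by
    have := KO.tors_gsmul (n := 1) g ((congrArg (· • _) (pow_one _)).trans (X_inv (F := F)))
    rwa [pow_one] at this
  choose c hc using fun g => exists_C (DFunLike.congr_fun hf g) (w1 g) (w0 g)
  obtain ⟨i, hi⟩ := f.inv
  obtain ⟨j, hj⟩ := Disc.disc (G := G) (KO.mk (KK.uz (-1) : KK F))
  obtain ⟨n, hn⟩ := sep' B (max i j)
  let Φ : PP F →ₐ[F] G → F :=
    { RingHom.pi fun g => (constantCoeff (R := F)).comp (ptP B g) with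
      commutes' := fun c => funext fun g =>
        (congrArg constantCoeff (ptP_l B g (C c))).trans (constantCoeff_C c) }
  have hΦ : ∀ t g, Φ (TT.inr t) g = constantCoeff (B.pt g t) := fun t g =>
    congrArg constantCoeff (ptP_r B g t)
  obtain ⟨a, ha⟩ := mem_of_factor Φ.range (ι := F ⊕ Fin (n + 1))
    (fun k => Φ (TT.inr (k.elim (fun c => OInv.inc _ (C c)) fun k : Fin (n + 1) => OInv.cc _ k)))
    (fun k => ⟨_, rfl⟩) c fun g g' e => by
      have h3 := hn g g' (fun c => by simpa only [hΦ, Sum.elim_inl, pt_inc] using e (.inl c))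
        fun k hk => by simpa only [hΦ, Sum.elim_inr, pt_cc] using e (.inr ⟨k, by omega⟩)
      have h4 := hc g'
      rw [← mul_inv_cancel_left g g', hi g _ (anti (le_max_left i j) h3), mul_smul,
        hj _ (anti (le_max_right i j) h3), hc g, mul_inv_cancel_left, ← sub_eq_zero, ← sub_smul,
        ← map_sub] at h4
      by_contra h5
      exact smul_ne (w0 g) (by rwa [constantCoeff_C, sub_ne_zero]) h4
  refine ⟨op χ χT a (z0 χ χT), LC.ext fun g => ?_⟩
  rw [Ev_op, Ev_z0, smul_soc (w1 g), hc g, ← ha]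
  rfl

theorem Ev_surj : Function.Surjective (Ev B h) := by
  obtain ⟨a, ε, e1, e2⟩ := exists_eps h1 h2
  intro f
  obtain ⟨n, hn⟩ : ∃ n : ℕ, (X : F⟦X⟧) ^ n • f = 0 := by
    choose k hk using KO.exists_tors (F := F)
    obtain ⟨n, hn⟩ := (f.finite_range.image k).bddAbove
    exact ⟨n, LC.ext fun g => KO.tors_mono (hn ⟨_, ⟨g, rfl⟩, rfl⟩) (hk _)⟩
  induction n generalizing f with
  | zero => exact ⟨0, by rw [map_zero, ← hn, pow_zero, one_smul]⟩
  | succ n ih =>
    obtain ⟨x, hx⟩ := ih ((X : F⟦X⟧) • f) (by rwa [← mul_smul, ← pow_succ])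
    obtain ⟨y, rfl⟩ := divis e1 e2 x
    obtain ⟨z, hz⟩ := Ev_soc B h1 h2 h (f := f - Ev B h y) (by rw [smul_sub, ← hx, map_smul, sub_self])
    exact ⟨z + y, by rw [map_add, hz, sub_add_cancel]⟩

omit h1 h2 in
/-- **Row PTS** -/
theorem rowPTS : RowPTS B := fun _ _ _ _ _ h1 h2 h =>
  ⟨Ev B h, ⟨Ev_inj B h1 h2 h, Ev_surj B h1 h2 h⟩, fun _ _ g => Ev_mk B h _ g⟩

end Vale.Agent.P221X.EV
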